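import Crest.Agent.X212.Tmc7.Gen
import Crest.Agent.X212.Gla92.Lf
import Crest.Agent.X212.Gb50.Geo

/-!
# Row 212, GL (helper7): the leaves TM-X, TM-S, CUT-X, CUT-S
-/

set_option autoImplicit false
set_option linter.unusedSectionVars false
noncomputable section
open scoped Manifold ContDiff Topology InnerProductSpace
open Set Function Filter

namespace Crest.Agent.X212.Tmc7
open An An.Job M Prm93 Nd18 Gj67 Gb50 Gla92
open Wrd81 (TmIn)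

theorem ev_imp {α : Type} (l : Filter α) (P : α → Prop) : ∀ᶠ q in l, (∀ᶠ q in l, P q) → P q :=
  eventually_imp_distrib_left.2 id

variable {Wi : Type} {X : Mf 4} {A κ lam : Type} [Fintype A] [Fintype κ] [Fintype lam]
  [DecidableEq lam] {M : Mark X A κ} {W : World M} {L : ML M lam} {Λ : Lns W L}
  {A' h : Type} [Fintype A'] [DecidableEq A'] [Fintype h] {r n : ℕ}
  {J : Job Wi Λ A' h r n} {σ : Cel A'} {a : A'}
  {U Up R : Type} [NormedAddCommGroup U] [NormedSpace ℝ U] [NormedAddCommGroup Up]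
  [NormedSpace ℝ Up] [NormedAddCommGroup R] [NormedSpace ℝ R] {d : Dat J σ a U Up R}
  {q₀ : Wi →₀ ℝ} {δ : ℝ}

section job
variable {c : M.Cl} {p : Prm A} {x : X.M}

theorem tp_in (hp : p ∈ M.Br c.1) {Ω : Set X.M} (hΩ : Ω ⊆ (M.sys.cores c.1)ᶜ) :
    (J.tp c).In X.I (W.Z c).I Ω (W.φ c '' Ω) :=
  Tp.in_of (W.φ c) (fun x hx => (Line51.fsm_rl ((Λ.iso J.m c _ hp).sm x hx)).contMDiffWithinAt)
    (W.src c ▸ hΩ)

theorem tp_f (hx : x ∉ M.sys.cores c.1) (g : X.M → ℝ) : (J.tp c).f g (W.φ c x) = g x := by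
  have k := (W.mem_src c).2 hx
  show indicator _ _ _ = _
  rw [indicator_of_mem ((W.φ c).map_source k), comp_apply, (W.φ c).left_inv k]

theorem tp_s (hx : x ∉ M.sys.cores c.1) (g : X.M → Eu (lam ⊕ lam)) :
    (J.tp c).s g (W.φ c x) = Line51.rl (Λ.v J.m c x) (g x) := by
  have k := (W.mem_src c).2 hx
  simp only [Job.tp, Tp.of]
  rw [indicator_of_mem ((W.φ c).map_source k), (W.φ c).left_inv k]

theorem D_eq {s : A' → ℝ} (hp : J.Θ s ∈ M.O c.1) (i : Option κ) (g : (W.Z c).M → ℝ) :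
    (J.G c s).F.D i g = Sob92.dv (W.Z c).I ((W.L J.m c).e (J.Θ s) i) g := by
  rw [← Lay.F_e _ (Mark.mem_Ω _ hp)]; rfl

theorem cont_D {z : (W.Z c).M} (hz : (p, z) ∈ M.Ω c.1 (W.φ c)) {g : (W.Z c).M → ℝ}
    (hg : Sm (W.Z c).I g) (i : Option κ) : ContinuousAt (fun q : Prm A × (W.Z c).M =>
      Sob92.dv (W.Z c).I ((W.L J.m c).e q.1 i) g q.2) (p, z) :=
  (JAt.dv' (e := fun s => (W.L J.m c).e s i) ((W.L J.m c).sm p z hz i)
    (.of_fixed (hg z))).continuousAt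

end job

variable (d) in
/-- long necks and small parameters -/
abbrev lX : Filter (d.Ta × Gj67.Tc σ a) := d.lg ×ˢ 𝓝 0

theorem evX {P : ∀ ι : Type, (ι → d.Ta) → ℝ → Prop} {N : d.Ta × Gj67.Tc σ a → Prop}
    (hN : ∀ᶠ q in lX d, N q)
    (k : ∀ ι (τ : ι → d.Ta) ρ, (∀ i, ∀ t ∈ QX d (τ i) ρ, N (τ i, t)) → P ι τ ρ) : EvX d P := by
  obtain ⟨S, hS, B, hB, e⟩ := eventually_prod_iff.1 hN
  obtain ⟨r, r0, k'⟩ := Metric.eventually_nhds_iff_ball.1 hB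
  exact ⟨_, hS, r, r0, fun ι τ hτ ρ hρ => k ι τ ρ fun i t ht =>
    e (hτ i) (k' t (Metric.ball_subset_ball hρ.2 ht.2))⟩

theorem evS {P : ℝ → Prop} {N : Gj67.Tc σ a → Prop} (hN : ∀ᶠ t in 𝓝 0, N t)
    (k : ∀ ρ, (∀ t ∈ QS d ρ, N t) → P ρ) : EvS P := by
  obtain ⟨r, r0, k'⟩ := Metric.eventually_nhds_iff_ball.1 hN
  exact ⟨r, r0, fun ρ hρ => k ρ fun t ht => k' t (Metric.ball_subset_ball hρ.2 ht.2)⟩

theorem tX : Tendsto (fun q : d.Ta × Gj67.Tc σ a => ((q.1 : ℝ), q.2)) (lX d) (𝓝 (1, 0)) :=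
  (tendsto_comap.comp tendsto_fst).prodMk_nhds tendsto_snd

theorem toS {P : ℝ × Gj67.Tc σ a → Prop} (k : ∀ᶠ q in 𝓝 (1, 0), q.1 ≤ 1 → P q) :
    ∀ᶠ t in 𝓝 0, P (1, t) :=
  (((Continuous.prodMk_right (1 : ℝ)).tendsto 0).eventually k).mono fun _ e => e le_rfl

theorem exh {Ω : Set X.M} (hΩ : Ω ⊆ (M.sys.cores (J.cf a).1)ᶜ) :
    Exh atTop (W.φ M.c0 '' Ω) (Om d) := fun K hK hs => by
  have h1 : K ⊆ (ph0 J a).target := hs.trans (forall_mem_image.2 fun x hx => by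
    have k := (W.mem_src M.c0).2 (Mark.cores_mono (empty_subset _) (hΩ hx))
    refine ⟨(W.φ M.c0).map_source k, ?_⟩
    show (W.φ M.c0).toPartialEquiv.symm (W.φ M.c0 x) ∈ (W.φ (J.cf a)).source
    rw [(W.φ M.c0).left_inv k]; exact (W.mem_src _).2 (hΩ hx))
  obtain ⟨b, hb⟩ := (hK.image_of_continuousOn (d.sm_hS.continuous.comp_continuousOn
    ((ph0 J a).continuousOn_symm.mono h1))).bddAbove
  filter_upwards [eventually_gt_atTop b] with t ht z hz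
  exact ⟨_, ⟨(ph0 J a).map_target (h1 hz), (hb ⟨z, hz, rfl⟩).trans_lt ht⟩,
    (ph0 J a).right_inv (h1 hz)⟩

variable (H : d.OK q₀ δ)
include H

theorem toX {P : ℝ × Gj67.Tc σ a → Prop} (k : ∀ᶠ q in 𝓝 (1, 0), q.1 ≤ 1 → P q) :
    ∀ᶠ q in lX d, P (q.1, q.2) :=
  ((tX.eventually k).and (tendsto_fst.eventually (ev_lg H))).mono fun _ e => e.1 e.2.lt.le

theorem ev_dom : ∀ᶠ q : ℝ × Gj67.Tc σ a in 𝓝 (1, 0), q.1 ≤ 1 → d.s q.1 q.2 ∈ J.dom σ := by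
  have h2 : ∀ᶠ q : ℝ × Gj67.Tc σ a in 𝓝 (1, 0), ∀ a', σ a' = none → a' ≠ a → d.s q.1 q.2 a' < 1 :=
    eventually_all.2 fun a' => by
      by_cases k : σ a' = none ∧ a' ≠ a
      · refine (((continuous_apply a').comp (cd_ee _).continuous).tendsto
          _).eventually (Iio_mem_nhds ?_) |>.mono fun _ e _ _ => e
        show d.s 1 0 a' < 1
        rw [s_one H]; exact (H.int a' k.1 k.2).2
      · exact .of_forall fun _ e e' => (k ⟨e, e'⟩).elim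
  filter_upwards [h2] with q k2 k4
  refine ⟨fun a' b e => ?_, fun a' _ => ?_⟩
  · have : a' ≠ a := fun k => by simp [k, H.fr] at e
    simp [Dat.s, ee, e, this, H.sol.cell.1 a' b e]
  · by_cases k : σ a' = none ∧ a' ≠ a
    · exact (k2 a' k.1 k.2).le
    · simp only [Dat.s, ee, dif_neg k]
      split_ifs
      exacts [k4, (H.sol.cell.2 a').2]

theorem ovX : ∀ᶠ q in lX d, d.s q.1 q.2 ∈ J.dom σ ∧ Sys.inf (J.Θ (d.s q.1 q.2)).2 = M.c0.1 ∧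
    J.Θ (d.s q.1 q.2) ∈ M.O M.c0.1 := by
  filter_upwards [toX H (ev_dom H), toX H (ev_gp H), tendsto_fst.eventually (ev_lg H)] with q k1 k2 T
  have k := (k2.1.nk (k2.2.2.trans_lt T.lt)).O
  exact ⟨k1, eq_empty_of_forall_notMem fun x hx => (k x (fr0 x)).ne hx, k⟩

theorem ovS : ∀ᶠ t in 𝓝 0, d.s 1 t ∈ J.dom σ ∧ Sys.inf (J.Θ (d.s 1 t)).2 = (J.cf a).1 ∧
    J.Θ (d.s 1 t) ∈ M.O (J.cf a).1 := by
  filter_upwards [toS (ev_dom H), toS (ev_gp H)] with t k1 k2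
  exact ⟨k1, Set.ext fun x => ⟨fun e => (mem_cf H).2 (by_contra fun e' => (k2.1.o x e').ne e),
    fun e => (mem_cf H).1 e ▸ k2.2.2⟩, fun x hx => k2.1.o x fun e => hx.1 ((mem_cf H).2 e)⟩

theorem alt {V : Set A} {f : (A' → ℝ) → ℝ} (hV : ∃ s₀ < (1 : ℝ), ∀ σ ∈ J.𝒦, ∀ s ∈ J.dom σ,
    ∀ a x, J.hd a = some x → x ∈ V → s₀ ≤ s a → f s = 0) :
    (∀ᶠ q : ℝ × Gj67.Tc σ a in 𝓝 (1, 0), q.1 ≤ 1 → f (d.s q.1 q.2) = 0) ∨
      (M.sys.cores (J.hw \ V))ᶜ ⊆ (M.sys.cores (J.cf a).1)ᶜ := by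
  by_cases k : d.x ∈ V
  · obtain ⟨s₀, h1, h2⟩ := hV
    left
    filter_upwards [ev_dom H, continuous_fst.continuousAt.eventually (Ici_mem_nhds h1)]
      with q k1 k2 k3
    exact h2 σ H.mem _ (k1 k3) a _ H.hd k (le_of_le_of_eq k2 (ee_a _ _ _).symm)
  · exact .inr (compl_subset_compl.2 (biUnion_subset_biUnion_left fun x hx =>
      (mem_cf H).1 hx ▸ ⟨⟨a, H.hd⟩, k⟩))

omit H in
theorem tpS {Ω : Set X.M} (hΩ : Ω ⊆ (M.sys.cores (J.cf a).1)ᶜ) (d : Dat J σ a U Up R) :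
    (J.tp (J.cf a)).In X.I (W.Z (J.cf a)).I Ω (W.φ (J.cf a) '' Ω) :=
  tp_in (d.hb true).2.1 hΩ

omit H in
theorem tpX {Ω : Set X.M} (hΩ : Ω ⊆ (M.sys.cores (J.cf a).1)ᶜ) (d : Dat J σ a U Up R) :
    (J.tp M.c0).In X.I (W.Z M.c0).I Ω (W.φ M.c0 '' Ω) :=
  tp_in (Mark.mem_Br_c0 (d.hb true).2.1.1) fun _ k => Mark.cores_mono (empty_subset _) (hΩ k)

/-- **LEAF TM-X** -/
theorem tmX : TmX d := fun w => by
  have a1 : ∀ᶠ t in atTop, (∀ᶠ q in lX d, J.co w (d.s q.1 q.2) = 0) ∨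
      TmIn (W.Z M.c0).I (Om d t) ((J.tp M.c0).tm (J.tw w)) :=
    let ⟨_, h1, h2⟩ := H.ok.tw w
    (alt H h2).elim (fun k => .of_forall fun _ => .inl (toX H k))
      fun k => ((exh k).tm ((tpX k d).tm h1)).mono fun _ => .inr
  have a2 : ∀ᶠ t in atTop, ∀ j, (∀ᶠ q in lX d, J.cc j w (d.s q.1 q.2) = 0) ∨
      XiIn (W.Z M.c0).I (Om d t) ((J.tp M.c0).tc (J.tc j w)).ξ := eventually_all.2 fun j =>
    let ⟨_, h1, h2⟩ := H.ok.tc j w
    (alt H h2).elim (fun k => .of_forall fun _ => .inl (toX H k))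
      fun k => ((exh k).xi ((tpX k d).xi h1)).mono fun _ => .inr
  filter_upwards [a1, a2] with t k1 k2
  exact evX ((ev_imp (lX d) fun q => J.co w (d.s q.1 q.2) = 0).and (eventually_all.2 fun j =>
    ev_imp (lX d) fun q => J.cc j w (d.s q.1 q.2) = 0)) fun ι τ ρ k =>
      ⟨k1.imp_left fun e i t ht => (k i t ht).1 e,
        fun j => (k2 j).imp_left fun e i t ht => (k i t ht).2 j e⟩

/-- **LEAF TM-S** -/
theorem tmS : TmS d := fun w => by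
  have k1 : (∀ᶠ t in 𝓝 0, J.co w (d.s 1 t) = 0) ∨
      TmIn (W.Z (J.cf a)).I univ ((J.tp _).tm (J.tw w)) :=
    let ⟨_, h1, h2⟩ := H.ok.tw w
    (alt H h2).imp toS fun k => eventually_top.1 ((exh_univ _).tm ((tpS k d).tm h1)) ()
  have k2 : ∀ j, (∀ᶠ t in 𝓝 0, J.cc j w (d.s 1 t) = 0) ∨
      XiIn (W.Z (J.cf a)).I univ ((J.tp _).tc (J.tc j w)).ξ := fun j =>
    let ⟨_, h1, h2⟩ := H.ok.tc j w
    (alt H h2).imp toS fun k => eventually_top.1 ((exh_univ _).xi ((tpS k d).xi h1)) ()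
  exact evS (d := d) ((ev_imp (𝓝 0) fun t => J.co w (d.s 1 t) = 0).and (eventually_all.2 fun j =>
    ev_imp (𝓝 0) fun t => J.cc j w (d.s 1 t) = 0)) fun ρ k =>
      ⟨k1.imp_left fun e _ t ht => (k t ht).1 e,
        fun j => (k2 j).imp_left fun e _ t ht => (k t ht).2 j e⟩

/-! ### cuts -/

theorem nb_sub (j : h) : J.nb j ⊆ (M.sys.cores (J.cf a).1)ᶜ :=
  (show j ∈ J.unc (J.cf a) from H.unc ▸ mem_univ j).subset_compl_right

theorem ok0 (j : h) : (J.cut (J.cf a) j).OK (J.B _) (J.G _ d.y.s).F :=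
  H.ok.ct σ H.mem _ (J.cl_dom H.sol.cell) _ H.sol.inf j (H.unc ▸ mem_univ j)

theorem tth : Tendsto (th d) (𝓝 (1, 0)) (𝓝 (J.Θ d.y.s)) :=
  s_one H ▸ (cd_th H).continuous.tendsto (1, 0)

/-- **LEAF CUT-S** -/
theorem ctS : CtS d := fun j => by
  have hk := (tpS (nb_sub H j) d).cut (H.ok.nb j).2
  have hK := (Csm97.dat (ok0 H j)).isCompact_supp
  have hm := H.okS.ok
  obtain ⟨c, c0, k⟩ := lb (l := 𝓝 0) (F := fun t => (J.G (J.cf a) (d.s 1 t)).F)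
    (p := fun _ => d.S.p) (ρ := fun _ => d.S.ρ) (j := fun _ => d.S.j) (Λ.B_ok _ _) rfl continuous_id
    hk (pb_id _) (ok0 H j) hK hm (fun w g hg i => by
      rw [D_eq (d.hb true).2.2.1]
      refine ((cont_D (J := J) (Mark.mem_Ω _ (d.hb true).2.2.1 w) hg i).tendsto.comp
        ((((tth H).comp ((Continuous.prodMk_right (1 : ℝ)).tendsto 0)).comp tendsto_fst).prodMk_nhds
          tendsto_snd)).congr' ((tendsto_fst.eventually (ovS H)).mono fun q e => ?_)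
      exact (congrFun (D_eq e.2.2 i g) _).symm)
    (fun w => (hm.sp.continuous.tendsto w).comp tendsto_snd)
    (fun w i => ((hm.sρ i).continuous.tendsto w).comp tendsto_snd)
    fun w => (hm.sj.continuous.tendsto w).comp tendsto_snd
  exact evS (d := d) (k.and (ovS H)) fun ρ e => ⟨eventually_top.1 ((exh_univ _).cut hk hK) (),
    fun _ t ht => H.ok.ct σ H.mem _ (e t ht).2.1 _ (e t ht).2.2.1 j (H.unc ▸ mem_univ j),
    c, c0, fun _ t ht => (e t ht).1⟩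

theorem cont_up : Continuous (W.up M.c0 (J.cf a)) :=
  continuous_iff_continuousAt.2 fun z => (W.md_up (up0 H) z).continuousAt

theorem f_up (g : X.M → ℝ) : (J.tp (J.cf a)).f g = (J.tp M.c0).f g ∘ W.up M.c0 (J.cf a) :=
  funext fun w => by
    obtain ⟨x, hx, rfl⟩ := ex_φ H w
    rw [comp_apply, W.up_φ (up0 H) hx, tp_f hx, tp_f (Mark.cores_mono (empty_subset _) hx)]

theorem s_up (g : X.M → Eu (lam ⊕ lam)) :
    (J.tp (J.cf a)).s g = (J.tp M.c0).s g ∘ W.up M.c0 (J.cf a) := funext fun w => by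
  obtain ⟨x, hx, rfl⟩ := ex_φ H w
  rw [comp_apply, W.up_φ (up0 H) hx, tp_s hx, tp_s (Mark.cores_mono (empty_subset _) hx),
    H.nΛ.v _ _ _ (up0 H) (sub_m H)]

theorem pbX (j : h) : Pb (W.up M.c0 (J.cf a)) (J.cut (J.cf a) j) (J.cut M.c0 j) where
  γ θ u := (W.up_φ (up0 H) (nb_sub H j ((H.ok.nb j).2.sub ⟨(θ, u), rfl⟩))).symm
  w := by simp only [Tp.cut, List.map_map, f_up H]; rfl
  e := by simp only [Tp.cut, List.map_map, f_up H, s_up H]; rfl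

theorem t_mix {V : Type} [NormedAddCommGroup V] [NormedSpace ℝ V] {f : (W.Z (J.cf a)).M → V}
    (hf : Continuous f) (g : d.Ta → d.Y × ℝ → V) (w : (W.Z (J.cf a)).M) :
    Tendsto (fun q : (d.Ta × Gj67.Tc σ a) × (W.Z (J.cf a)).M =>
      d.mix q.1.1 f (g q.1.1) (W.up M.c0 (J.cf a) q.2)) (lX d ×ˢ 𝓝 w) (𝓝 (f w)) := by
  refine ((hf.tendsto w).comp tendsto_snd).congr' ?_
  have t : Tendsto (fun q : (d.Ta × Gj67.Tc σ a) × (W.Z (J.cf a)).M => q.1.1) (lX d ×ˢ 𝓝 w) d.lg :=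
    tendsto_fst.comp tendsto_fst
  filter_upwards [t.eventually (ev_lg H), t.eventually ((geo H).la.eventually_ge_atTop (d.hS w + 3)),
    tendsto_snd.eventually (d.sm_hS.continuous.continuousAt.eventually
      (Iio_mem_nhds (lt_add_one (d.hS w))))] with q T k1 (k2 : d.hS q.2 < _)
  have hs : q.2 ∈ (d.φ q.1.1).source := by rw [φ_src H]; show d.hS q.2 < _; linarith
  rw [← φ_eq H q.1.1, Dat.mix, Dat.χ, hX_φ H T hs,
    Real.smoothTransition.zero_of_nonpos (by linarith), (d.φ _).left_inv hs]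
  simp

theorem t_D (w : (W.Z (J.cf a)).M) (g : (W.Z M.c0).M → ℝ) (hg : Sm (W.Z M.c0).I g) (i : Option κ) :
    Tendsto (fun q : (d.Ta × Gj67.Tc σ a) × (W.Z (J.cf a)).M =>
      (J.G M.c0 (d.s q.1.1 q.1.2)).F.D i g (W.up M.c0 (J.cf a) q.2)) (lX d ×ˢ 𝓝 w)
      (𝓝 ((J.G (J.cf a) d.y.s).F.D i (g ∘ W.up M.c0 (J.cf a)) w)) := by
  have e := H.nW.e J.m _ _ (up0 H) (sub_m H) (J.Θ d.y.s) w i
  rw [Mark.mp_br (d.hb true).2.1] at e
  rw [D_eq (d.hb true).2.2.1, show Sob92.dv _ _ (g ∘ W.up M.c0 (J.cf a)) w = _ from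
    Pj41.dv_ld (X' := (W.L J.m M.c0).e (J.Θ d.y.s) i) ((W.up_oe (up0 H)).loc w) e g]
  refine ((cont_D (J := J) ((gp0 H).Ω (h0_up H w ▸ hc_ne H w)) hg i).tendsto.comp
    ((((tth H).comp tX).comp tendsto_fst).prodMk_nhds (((cont_up H).tendsto w).comp
      tendsto_snd))).congr' ((tendsto_fst.eventually (ovX H)).mono fun q e => ?_)
  exact (congrFun (D_eq e.2.2 i g) _).symm

/-- **LEAF CUT-X** -/
theorem ctX : CtX d := fun j => by
  have hk := (tpX (nb_sub H j) d).cut (H.ok.nb j).2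
  have hK := (Csm97.dat (ok0 H j)).isCompact_supp
  have hm := H.okS.ok
  obtain ⟨c, c0, k⟩ := lb (l := lX d) (F := fun q => (J.G M.c0 (d.s q.1 q.2)).F)
    (p := fun q => (d.Xs q.1).p) (ρ := fun q => (d.Xs q.1).ρ) (j := fun q => (d.Xs q.1).j)
    (Λ.B_ok _ _) (H.nΛ.B H.nW (up0 H) (sub_m H)) (cont_up H) hk (pbX H j) (ok0 H j) hK hm (t_D H)
    (t_mix H hm.sp.continuous fun τ => (d.Z τ).p)
    (fun w i => t_mix H (hm.sρ i).continuous (fun τ => (d.Z τ).ρ i) w)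
    (t_mix H hm.sj.continuous fun τ => (d.Z τ).j)
  filter_upwards [(exh (d := d) (nb_sub H j)).cut hk ((pbX H j).cpt (cont_up H) hK)] with t ht
  exact evX (k.and (ovX H)) fun ι τ ρ e => ⟨ht, fun i t ht => H.ok.ct σ H.mem _ (e i t ht).2.1 _
    (e i t ht).2.2.1 j (by simp [Job.unc, Mark.c0, Sys.cores]), c, c0, fun i t ht => (e i t ht).1⟩

end Crest.Agent.X212.Tmc7
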