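import Crest.Agent.X212.Tmc7.Gen
import Crest.Agent.X212.Std94.Loc
import Crest.Agent.X212.Cnt93.Pt

/-!
# Row 212, GL (helper7): `Cut.OK` can be tested on one module; it is an open condition
-/

set_option autoImplicit false
set_option linter.unusedSectionVars false
noncomputable section
open scoped Manifold ContDiff Topology InnerProductSpace
open Set Function Filter

namespace Crest.Agent.X212.Tmc7
open An Wrd81 Cnt93 Eqv71

variable {E : Type} [NormedAddCommGroup E] [NormedSpace ℝ E] [FiniteDimensional ℝ E]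
  [MeasurableSpace E] [BorelSpace E]
  {HM : Type} [TopologicalSpace HM] {I : ModelWithCorners ℝ E HM} [I.Boundaryless]
  {M : Type} [TopologicalSpace M] [ChartedSpace HM M] [IsManifold I ∞ M]
  [MeasurableSpace M] [T2Space M] [BorelSpace M] [SecondCountableTopology M]
  {ι lam : Type} [Fintype ι] [Fintype lam] {B : Base M ι lam} {F F₀ : Fr I M ι}
  {k : Cut M lam} {m m' : Md M ι lam} {x : M} {Ω : Set M}

/-- `q0` vanishes for all modules or for none -/
theorem q0_all (hB : B.OK I) (hF : F.P = B.P) (H : m.OK I B) (H' : m'.OK I B)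
    (h : k.q0 B F m x ≠ 0) : k.q0 B F m' x ≠ 0 := fun z => h <| by
  obtain ⟨O, u, -, hx, e⟩ := Std94.exists_mEq hB H H' x
  have e := me_of_meq e hx
  have b := BE.refl hB x
  have D : ∀ (g : M → ℝ) c, F.D c g x = ∑ a, B.P c a x • F.D a g x := fun g c => by
    simp only [Pre.D_def, Sob92.dv, ← hF]
    rw [← F.P_e c x, map_sum]
    simp only [map_smul]
    rfl
  have d := fun g g' => dd_rel (F := F) (F' := F) b hB hB (D g) (D g')
  have o : RT (fun c a => B.P c a x) (k.om B F x) (k.om B F x) :=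
    RT.lsum (List.forall₂_same.2 fun _ _ => rfl) fun a _ _ _ h => h ▸ (d _ _).smul _
  have p : It (u x) (k.pi B F m x) (k.pi B F m' x) :=
    ((It.of (e.pp b hB hB H)).sub ((It.mul e.J.symm (c2_it e b H o)).smul _)).smul _
  have q : It (u x) (k.q0 B F m x) (k.q0 B F m' x) :=
    (p.mul (It.lsum (List.forall₂_same.2 fun _ _ => rfl) fun a _ _ _ h => h ▸
      It.mul (c2_it e b H (d _ _)) (by rw [← H'.jl x (a.1 x)]; exact e.j _))).mul p
  rw [q.eq_conj' e.uu (p_q0 k H), z]
  simp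

/-- `Cut.OK` from one module -/
theorem ok_of (hB : B.OK I) (hF : F.P = B.P) (h0 : k.OK B F₀) (hk : CutIn I Ω k) (H : m.OK I B)
    {c : ℝ} (hc : 0 < c) (h : ∀ θ u, c ≤ ‖k.om B F (k.γ θ u)‖ ∧ c ≤ ‖hsL (k.q0 B F m (k.γ θ u))‖) :
    k.OK B F :=
  ⟨h0.sm, h0.h0, h0.h1, fun t e => ⟨(hk.w t e).1.cb F, (hk.w t e).2.1.cd F, (hk.w t e).2.2.cd F⟩,
    fun t e => ⟨Sob92.Cb_of_hcs (hk.e t e).1.sm (hk.e t e).1.hcs, (hk.e t e).2.1.cd F,
      (hk.e t e).2.2.cd F⟩, fun θ u => norm_pos_iff.1 (hc.trans_le (h θ u).1),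
    fun _ H' θ u => q0_all hB hF H H' fun z => (hc.trans_le (h θ u).2).ne' (by
      rw [z, map_zero, norm_zero])⟩

end Crest.Agent.X212.Tmc7
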