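import Crest.Agent.X212.An.Syn
import Crest.Agent.X212.Pj41.Cm
import Crest.Agent.X212.Wz78.Sd

/-!
# Row 212, GL (helper7): shrinking supports; lower bounds for the data of a cut
-/

set_option autoImplicit false
set_option linter.unusedSectionVars false
noncomputable section
open scoped Manifold ContDiff Topology InnerProductSpace
open Set Function Filter

namespace Crest.Agent.X212.Tmc7
open An Wrd81
open Pj41 (cmB)

variable {E : Type} [NormedAddCommGroup E] [NormedSpace ℝ E] [FiniteDimensional ℝ E]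
  [MeasurableSpace E] [BorelSpace E]
  {HM : Type} [TopologicalSpace HM] {I : ModelWithCorners ℝ E HM} [I.Boundaryless]
  {M : Type} [TopologicalSpace M] [ChartedSpace HM M] [IsManifold I ∞ M]
  [MeasurableSpace M] [T2Space M] [BorelSpace M] [SecondCountableTopology M]
  {E₀ : Type} [NormedAddCommGroup E₀] [NormedSpace ℝ E₀] [FiniteDimensional ℝ E₀]
  [MeasurableSpace E₀] [BorelSpace E₀]
  {HM₀ : Type} [TopologicalSpace HM₀] {I₀ : ModelWithCorners ℝ E₀ HM₀} [I₀.Boundaryless]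
  {M₀ : Type} [TopologicalSpace M₀] [ChartedSpace HM₀ M₀] [IsManifold I₀ ∞ M₀]
  [MeasurableSpace M₀] [T2Space M₀] [BorelSpace M₀] [SecondCountableTopology M₀]
  {ι lam : Type} [Fintype ι] [Fintype lam] {r n : ℕ} {α : Type} {l : Filter α}

/-- the sets `O i` exhaust `Ω` -/
def Exh (l : Filter α) (Ω : Set M) (O : α → Set M) : Prop :=
  ∀ K, IsCompact K → K ⊆ Ω → ∀ᶠ i in l, K ⊆ O i

theorem exh_univ (Ω : Set M) : Exh (⊤ : Filter Unit) Ω fun _ => univ :=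
  fun _ _ _ => .of_forall fun _ => subset_univ _

theorem ev_all {β : Type} {L : List β} {P : α → β → Prop} (h : ∀ b ∈ L, ∀ᶠ i in l, P i b) :
    ∀ᶠ i in l, ∀ b ∈ L, P i b := (eventually_all_finite L.finite_toSet).2 h

namespace Exh
variable {Ω : Set M} {O : α → Set M} (h : Exh l Ω O)
include h

theorem tf {g : M → ℝ} (k : Tf I Ω g) : ∀ᶠ i in l, Tf I (O i) g :=
  (h _ k.hcs k.sub).mono fun _ e => ⟨k.sm, k.hcs, e⟩

theorem tv {g : M → Eu lam} (k : Tv I Ω g) : ∀ᶠ i in l, Tv I (O i) g :=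
  (h _ k.hcs k.sub).mono fun _ e => ⟨k.sm, k.hcs, e⟩

theorem sw {u : SW M} (k : SwIn I Ω u) : ∀ᶠ i in l, SwIn I (O i) u := ev_all fun t ht => by
  have := k t ht
  cases t
  exacts [h.tf this, h.tf this, .of_forall fun _ => trivial, .of_forall fun _ => trivial]

theorem ll {u : List (La M)} (k : LlIn I Ω u) : ∀ᶠ i in l, LlIn I (O i) u := ev_all fun t ht => by
  have := k t ht
  cases t
  exacts [h.tf this, .of_forall fun _ => trivial]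

theorem aw {ξ : AW M} (k : AwIn I Ω ξ) : ∀ᶠ i in l, AwIn I (O i) ξ := by
  obtain ⟨s, u⟩ := ξ
  refine Eventually.and ?_ (h.ll k.2)
  cases s
  exacts [(h.sw k.1.1).and (h.sw k.1.2), (h.tf k.1.1).and ((h.tf k.1.2.1).and (h.tf k.1.2.2))]

theorem sg {g : Sg M lam} (k : SgIn I Ω g) : ∀ᶠ i in l, SgIn I (O i) g :=
  (h.tv k.1).and ((h.sw k.2.1).and (h.sw k.2.2))

theorem co {d : Co M lam r} (k : CoIn I Ω d) : ∀ᶠ i in l, CoIn I (O i) d := by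
  cases d
  exacts [.of_forall fun _ => trivial, (h.sg k.1).and (ev_all fun g e => h.sg (k.2 g e))]

theorem tm {T : Tm M lam r n} (k : TmIn I Ω T) : ∀ᶠ i in l, TmIn I (O i) T := by
  cases T
  exacts [(h.sw k.1).and (.of_forall fun _ => k.2), (h.co k.1).and ((h.tv k.2.1).and (h.sw k.2.2)),
    (h.tf k.1).and ((h.tf k.2.1).and (h.aw k.2.2)),
    (h.co k.1).and ((h.tv k.2.1).and ((h.tf k.2.2.1).and ((h.tf k.2.2.2.1).and
      ((h.sw k.2.2.2.2.1).and ((h.sw k.2.2.2.2.2.1).and (h.ll k.2.2.2.2.2.2)))))),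
    (h.tf k.1).and ((h.tf k.2.1).and ((h.tf k.2.2.1).and ((Eventually.of_forall fun _ => k.2.2.2.1).and
      ((Eventually.of_forall fun _ => k.2.2.2.2.1).and (ev_all fun ξ e => h.aw (k.2.2.2.2.2 ξ e)))))),
    h.sg k, .of_forall fun _ => trivial]

theorem xi {ξ : Xi M lam r} (k : XiIn I Ω ξ) : ∀ᶠ i in l, XiIn I (O i) ξ := by
  cases ξ
  exacts [.of_forall fun _ => trivial, h.aw k, (h.co k.1).and ((h.tv k.2.1).and
    ((h.sw k.2.2.1).and ((h.sw k.2.2.2.1).and (h.ll k.2.2.2.2))))]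

theorem cut {c : Cut M lam} (k : CutIn I Ω c) (hc : IsCompact c.supp) :
    ∀ᶠ i in l, CutIn I (O i) c :=
  ((h _ hc k.sub).and ((ev_all fun d e => (h.tf (k.w d e).1).and ((h.tf (k.w d e).2.1).and
    (h.tf (k.w d e).2.2))).and (ev_all fun d e => (h.tv (k.e d e).1).and
      ((h.tf (k.e d e).2.1).and (h.tf (k.e d e).2.2))))).mono fun _ e => ⟨e.1, e.2.1, e.2.2⟩

end Exh

/-- uniform lower bounds on compact sets -/
theorem lb_cpt {V : Type} [NormedAddCommGroup V] {K : Set M₀} (hK : IsCompact K) {f : α → M₀ → V}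
    (h : ∀ z ∈ K, ∃ v ≠ 0, Tendsto (fun q : α × M₀ => f q.1 q.2) (l ×ˢ 𝓝 z) (𝓝 v)) :
    ∃ c > 0, ∀ᶠ i in l, ∀ z ∈ K, c ≤ ‖f i z‖ := by
  refine hK.induction_on (p := fun K => ∃ c > 0, ∀ᶠ i in l, ∀ z ∈ K, c ≤ ‖f i z‖)
    ⟨1, one_pos, .of_forall fun _ _ k => k.elim⟩
    (fun _ _ e ⟨c, c0, k⟩ => ⟨c, c0, k.mono fun _ k z hz => k z (e hz)⟩)
    (fun _ _ ⟨c, c0, k⟩ ⟨c', c0', k'⟩ => ⟨min c c', lt_min c0 c0', (k.and k').mono fun _ k z hz =>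
      hz.elim (fun e => (min_le_left _ _).trans (k.1 z e)) fun e =>
        (min_le_right _ _).trans (k.2 z e)⟩) fun z hz => ?_
  obtain ⟨v, v0, k⟩ := h z hz
  have p := half_pos (norm_pos_iff.2 v0)
  obtain ⟨a, ha, b, hb, e⟩ := eventually_prod_iff.1 (k.norm.eventually
    (Ici_mem_nhds (half_lt_self (norm_pos_iff.2 v0))))
  exact ⟨_, nhdsWithin_le_nhds hb, _, p, ha.mono fun _ k _ hz => e k hz⟩

/-- `k₀` is the pull-back of `k` -/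
structure Pb (ψ : M₀ → M) (k₀ : Cut M₀ lam) (k : Cut M lam) : Prop where
  γ : ∀ θ u, k.γ θ u = ψ (k₀.γ θ u)
  w : k₀.w = k.w.map fun d => (d.1 ∘ ψ, d.2.1 ∘ ψ, d.2.2 ∘ ψ)
  e : k₀.e = k.e.map fun d => (d.1 ∘ ψ, d.2.1 ∘ ψ, d.2.2 ∘ ψ)

theorem pb_id (k : Cut M lam) : Pb id k k :=
  ⟨fun _ _ => rfl, (List.map_id' _).symm, (List.map_id' _).symm⟩

variable {ψ : M₀ → M} {k₀ : Cut M₀ lam} {k : Cut M lam}

theorem Pb.cpt (e : Pb ψ k₀ k) (hψ : Continuous ψ) (h : IsCompact k₀.supp) : IsCompact k.supp := by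
  rw [Cut.supp, show uncurry k.γ = ψ ∘ uncurry k₀.γ from funext fun z => e.γ z.1 z.2, range_comp]
  exact h.image hψ

section lim
variable {B : Base M ι lam} {F : α → Fr I M ι} {F₀ : Fr I₀ M₀ ι} {x : α → M} {x₀ : M₀}
  {N : ℕ} {Jc : En (Fin N)} {p : α → M → En (Fin N)} {ρ : α → ι → M → En (Fin N)}
  {j : α → M → CL (Eu lam) (En (Fin N))} {p₀ : M₀ → En (Fin N)} {ρ₀ : ι → M₀ → En (Fin N)}
  {j₀ : M₀ → CL (Eu lam) (En (Fin N))} {Ω : Set M}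
  (hρ : ∀ a, Tendsto (fun i => ρ i a (x i)) l (𝓝 (ρ₀ a x₀)))
  (hB : B.OK I) (hx : Tendsto x l (𝓝 (ψ x₀)))
  (hD : ∀ g : M → ℝ, Sm I g → ∀ a, Tendsto (fun i => (F i).D a g (x i)) l (𝓝 (F₀.D a (g ∘ ψ) x₀)))

variable (Jc p j p₀ j₀) in
include hρ in
theorem t_c2 {w : α → Eu (ι × ι)} {w₀ : Eu (ι × ι)} (hw : Tendsto w l (𝓝 w₀)) :
    Tendsto (fun i => ((Md.mk N Jc (p i) (ρ i) (j i)).c2 (x i) (w i) : En (Fin N))) l
      (𝓝 ((Md.mk N Jc p₀ ρ₀ j₀).c2 x₀ w₀)) :=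
  tendsto_finsetSum _ fun s _ =>
    (((EuclideanSpace.proj s).continuous.tendsto _).comp hw).smul ((hρ s.1).mul (hρ s.2))

include hx in
theorem t_sm {V : Type} [NormedAddCommGroup V] [NormedSpace ℝ V] {g : M → V} (hg : Sm I g) :
    Tendsto (fun i => g (x i)) l (𝓝 (g (ψ x₀))) := (hg.continuous.tendsto _).comp hx

include hB hx

variable (Jc j j₀) in
include hρ in
theorem t_pp (hp : Tendsto (fun i => p i (x i)) l (𝓝 (p₀ x₀))) :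
    Tendsto (fun i => ((Md.mk N Jc (p i) (ρ i) (j i)).pp B (x i) : En (Fin N))) l
      (𝓝 ((Md.mk N Jc p₀ ρ₀ j₀).pp (cmB ψ B) x₀)) :=
  (hp.sub ((tendsto_finsetSum _ fun a _ => tendsto_finsetSum _ fun b _ =>
    tendsto_finsetSum _ fun c _ => tendsto_finsetSum _ fun d _ => (t_sm hx (hB.so a b c d)).smul
      ((((hρ a).mul (hρ b)).mul (hρ c)).mul (hρ d))).const_smul (1 / 24 : ℝ))).const_smul (1 / 2 : ℝ)

include hD

theorem t_dd {g g' : M → ℝ} (hg : Sm I g) (hg' : Sm I g') :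
    Tendsto (fun i => B.dd (F i) g g' (x i)) l (𝓝 ((cmB ψ B).dd F₀ (g ∘ ψ) (g' ∘ ψ) x₀)) :=
  have P := fun a b => t_sm hx (hB.sP a b)
  ((PiLp.continuous_toLp 2 _).tendsto _).comp (tendsto_pi_nhds.2 fun _ =>
    tendsto_finsetSum _ fun _ _ => ((((((P _ _).mul (P _ _)).sub ((P _ _).mul (P _ _))).div_const
      2).add ((t_sm hx (hB.so _ _ _ _)).div_const 2)).div_const 2).mul ((hD g hg _).mul (hD g' hg' _)))

variable (hk : CutIn I Ω k) (e : Pb ψ k₀ k)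
include hk e

theorem t_om : Tendsto (fun i => k.om B (F i) (x i)) l (𝓝 (k₀.om (cmB ψ B) F₀ x₀)) := by
  rw [Cut.om, e.w, List.map_map]
  exact tendsto_list_sum _ fun d hd => (t_sm hx (hk.w d hd).1.sm).smul
    (t_dd hB hx hD (hk.w d hd).2.1.sm (hk.w d hd).2.2.sm)

variable (Jc) in
include hρ in
theorem t_q0 (hp : Tendsto (fun i => p i (x i)) l (𝓝 (p₀ x₀)))
    (hj : Tendsto (fun i => j i (x i)) l (𝓝 (j₀ x₀))) (h0 : k₀.om (cmB ψ B) F₀ x₀ ≠ 0) :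
    Tendsto (fun i => (k.q0 B (F i) (Md.mk N Jc (p i) (ρ i) (j i)) (x i) : En (Fin N))) l
      (𝓝 (k₀.q0 (cmB ψ B) F₀ (Md.mk N Jc p₀ ρ₀ j₀) x₀)) := by
  have o := t_om hB hx hD hk e
  have q : Tendsto (fun i => (k.pi B (F i) (Md.mk N Jc (p i) (ρ i) (j i)) (x i) : En (Fin N))) l
      (𝓝 (k₀.pi (cmB ψ B) F₀ (Md.mk N Jc p₀ ρ₀ j₀) x₀)) :=
    Tendsto.const_smul (α := En (Fin N)) (Tendsto.sub (G := En (Fin N)) (t_pp Jc j j₀ hρ hB hx hp)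
      (Tendsto.smul (X := En (Fin N)) ((o.norm.const_mul 2).inv₀
        (mul_ne_zero two_ne_zero (norm_ne_zero_iff.2 h0)))
        (Tendsto.const_mul (M := En (Fin N)) Jc (t_c2 Jc p j p₀ j₀ hρ o)))) (1 / 2 : ℝ)
  rw [Cut.q0, e.e, List.map_map]
  refine Tendsto.mul (M := En (Fin N)) (Tendsto.mul (M := En (Fin N)) q
    (tendsto_list_sum (M := En (Fin N)) _ fun d hd => ?_)) q
  exact Tendsto.mul (M := En (Fin N))
    (t_c2 Jc p j p₀ j₀ hρ (t_dd hB hx hD (hk.e d hd).2.1.sm (hk.e d hd).2.2.sm))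
    ((isBoundedBilinearMap_apply.continuous.tendsto (_, _)).comp
      (hj.prodMk_nhds (t_sm hx (hk.e d hd).1.sm)))

end lim

/-- **the data of a cut do not degenerate** -/
theorem lb {B : Base M ι lam} {B₀ : Base M₀ ι lam} {F : α → Fr I M ι} {F₀ : Fr I₀ M₀ ι}
    {N : ℕ} {Jc : En (Fin N)} {p : α → M → En (Fin N)} {ρ : α → ι → M → En (Fin N)}
    {j : α → M → CL (Eu lam) (En (Fin N))} {p₀ : M₀ → En (Fin N)} {ρ₀ : ι → M₀ → En (Fin N)}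
    {j₀ : M₀ → CL (Eu lam) (En (Fin N))} {Ω : Set M} (hB : B.OK I) (eB : B₀ = cmB ψ B)
    (hψ : Continuous ψ) (hk : CutIn I Ω k) (e : Pb ψ k₀ k) (h0 : k₀.OK B₀ F₀)
    (hK : IsCompact k₀.supp) (hm : (Md.mk N Jc p₀ ρ₀ j₀).OK I₀ B₀)
    (hD : ∀ w, ∀ g : M → ℝ, Sm I g → ∀ a, Tendsto (fun q : α × M₀ => (F q.1).D a g (ψ q.2))
      (l ×ˢ 𝓝 w) (𝓝 (F₀.D a (g ∘ ψ) w)))
    (hp : ∀ w, Tendsto (fun q : α × M₀ => p q.1 (ψ q.2)) (l ×ˢ 𝓝 w) (𝓝 (p₀ w)))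
    (hρ : ∀ w a, Tendsto (fun q : α × M₀ => ρ q.1 a (ψ q.2)) (l ×ˢ 𝓝 w) (𝓝 (ρ₀ a w)))
    (hj : ∀ w, Tendsto (fun q : α × M₀ => j q.1 (ψ q.2)) (l ×ˢ 𝓝 w) (𝓝 (j₀ w))) :
    ∃ c > 0, ∀ᶠ i in l, ∀ θ u, c ≤ ‖k.om B (F i) (k.γ θ u)‖ ∧
      c ≤ ‖hsL (k.q0 B (F i) (Md.mk N Jc (p i) (ρ i) (j i)) (k.γ θ u))‖ := by
  subst eB
  have hx : ∀ w, Tendsto (fun q : α × M₀ => ψ q.2) (l ×ˢ 𝓝 w) (𝓝 (ψ w)) := fun w =>
    (hψ.tendsto w).comp tendsto_snd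
  have a1 : ∀ z ∈ k₀.supp, ∃ v ≠ 0, Tendsto (fun q : α × M₀ => k.om B (F q.1) (ψ q.2))
      (l ×ˢ 𝓝 z) (𝓝 v) := by
    rintro _ ⟨⟨θ, u⟩, rfl⟩
    exact ⟨_, h0.om θ u, t_om (F := fun q : α × M₀ => F q.1) hB (hx _) (hD _) hk e⟩
  have a2 : ∀ z ∈ k₀.supp, ∃ v ≠ 0, Tendsto (fun q : α × M₀ => hsL (κ := Fin N)
      (k.q0 B (F q.1) (Md.mk N Jc (p q.1) (ρ q.1) (j q.1)) (ψ q.2))) (l ×ˢ 𝓝 z) (𝓝 v) := by
    rintro _ ⟨⟨θ, u⟩, rfl⟩
    have t := ((hsL (κ := Fin N)).continuous.tendsto _).comp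
      (t_q0 (F := fun q : α × M₀ => F q.1) (p := fun q => p q.1) (ρ := fun q => ρ q.1)
        (j := fun q => j q.1) Jc (hρ _) hB (hx _) (hD _) hk e (hp _) (hj _) (h0.om θ u))
    refine ⟨_, fun z => h0.q0 _ hm θ u ?_, t⟩
    exact (Wz78.opL_hsL _).symm.trans ((congrArg opL z).trans (map_zero _))
  obtain ⟨c, c0, k1⟩ := lb_cpt hK (f := fun i w => k.om B (F i) (ψ w)) a1
  obtain ⟨c', c0', k2⟩ := lb_cpt hK (f := fun i w => hsL (κ := Fin N)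
      (k.q0 B (F i) (Md.mk N Jc (p i) (ρ i) (j i)) (ψ w))) a2
  refine ⟨min c c', lt_min c0 c0', (k1.and k2).mono fun i k θ u => ?_⟩
  rw [e.γ]
  exact ⟨(min_le_left _ _).trans (k.1 _ ⟨(θ, u), rfl⟩), (min_le_right _ _).trans (k.2 _ ⟨(θ, u), rfl⟩)⟩

end Crest.Agent.X212.Tmc7
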